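import Vale.Agent.P168.Final

/-!
The Mézard–Parisi formula for diluted spin glasses.
-/

namespace Vale.Agent.Results.P168.MezardParisi

open Filter Topology Vale.Agent.P168

theorem result (M : Model) (hM : M.Valid) :
    (∀ r, (depthValues M r).Nonempty ∧ BddBelow (depthValues M r)) ∧
      BddBelow (Set.range (phi M)) ∧
      Tendsto (pressure M) atTop (𝓝 (⨅ r, phi M r)) :=
  ⟨fun r => ⟨depthValues_nonempty M r, depthValues_bddBelow hM r⟩, phi_bddBelow hM,
    pressure_tendsto hM⟩

end Vale.Agent.Results.P168.MezardParisi
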